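import Vale.Agent.P039.Bz.Stmt
import Vale.Agent.P039.Sk.Basic
import Mathlib.Data.Set.Card

/-! Conversions between the forms of the statements (webs with labelled faces, `PMap`). -/

namespace Vale.Agent.P039.Bz

open Vale.Agent.P039.Bn Vale.Agent.P039.Sk

variable {B W V : Type}

/-- The `PMap` of a web with labelled faces. -/
def ofLab {X : Web B W} (L : Lab X V) : PMap B W V where
  e := X.e
  c := L.c
  step := L.step
  exact := L.exact
  cls := L.cls
  surj := L.surj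

/-- The web of a `PMap`. -/
def toWeb (M : PMap B W V) : Web B W := ⟨M.e⟩

/-- The labelling of a `PMap`. -/
def toLab (M : PMap B W V) : Lab (toWeb M) V where
  c := M.c
  step := M.step
  exact := M.exact
  cls := M.cls
  surj := M.surj

theorem ofLab_toLab (M : PMap B W V) : ofLab (toLab M) = M := rfl

@[simp] theorem ofLab_e {X : Web B W} (L : Lab X V) : (ofLab L).e = X.e := rfl
@[simp] theorem ofLab_c {X : Web B W} (L : Lab X V) : (ofLab L).c = L.c := rfl
@[simp] theorem toWeb_e (M : PMap B W V) : (toWeb M).e = M.e := rfl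
@[simp] theorem toLab_c (M : PMap B W V) : (toLab M).c = M.c := rfl

/-! ### cuts -/

/-- the vertex set form -/
def vset (S : Set B) (T : Set W) : Set (B ⊕ W) := {x | Sum.elim (fun b => b ∈ S) (fun w => w ∈ T) x}

@[simp] theorem inl_mem_vset (S : Set B) (T : Set W) (b : B) : Sum.inl b ∈ vset S T ↔ b ∈ S :=
  Iff.rfl

@[simp] theorem inr_mem_vset (S : Set B) (T : Set W) (w : W) : Sum.inr w ∈ vset S T ↔ w ∈ T :=
  Iff.rfl

theorem vset_compl (S : Set B) (T : Set W) : (vset S T)ᶜ = vset Sᶜ Tᶜ := by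
  ext x; rcases x with b | w <;> rfl

theorem vset_preimage (U : Set (B ⊕ W)) : vset (Sum.inl ⁻¹' U) (Sum.inr ⁻¹' U) = U := by
  ext x; rcases x with b | w <;> rfl

theorem vset_nonempty (S : Set B) (T : Set W) :
    (vset S T).Nonempty ↔ S.Nonempty ∨ T.Nonempty := by
  constructor
  · rintro ⟨b | w, h⟩
    · exact Or.inl ⟨b, h⟩
    · exact Or.inr ⟨w, h⟩
  · rintro (⟨b, h⟩ | ⟨w, h⟩)
    · exact ⟨Sum.inl b, h⟩
    · exact ⟨Sum.inr w, h⟩

section Cuts

variable [Fintype B] (M : PMap B W V)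

theorem cutc_eq_ncard (S : Set B) (T : Set W) :
    cutc M S T = {p : Fin 3 × B | ¬ (p.2 ∈ S ↔ M.e p.1 p.2 ∈ T)}.ncard := by
  classical
  unfold cutc
  rw [← Set.ncard_coe_finset]
  congr 1
  ext p
  simp

theorem cutc_eq_natcard (S : Set B) (T : Set W) :
    cutc M S T = Nat.card {q : B × Fin 3 // ¬ (q.1 ∈ S ↔ M.e q.2 q.1 ∈ T)} := by
  rw [cutc_eq_ncard, ← Nat.card_coe_set_eq]
  exact Nat.card_congr ((Equiv.prodComm _ _).subtypeEquiv fun p => Iff.rfl)

theorem vset_ncard [Finite W] (S : Set B) (T : Set W) :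
    (vset S T).ncard = S.ncard + T.ncard := by
  have h : vset S T = (Sum.inl '' S) ∪ (Sum.inr '' T) := by
    ext x
    rcases x with b | w <;> simp
  rw [h, Set.ncard_union_eq, Set.ncard_image_of_injective _ Sum.inl_injective,
    Set.ncard_image_of_injective _ Sum.inr_injective]
  rw [Set.disjoint_left]
  rintro _ ⟨b, _, rfl⟩ ⟨w, _, h⟩
  cases h

/-- `C3` for sets of vertices -/
theorem c3_iff_vset : C3 M ↔ ∀ U : Set (B ⊕ W), U.Nonempty → Uᶜ.Nonempty →
    3 ≤ {p : Fin 3 × B | ¬ (Sum.inl p.2 ∈ U ↔ Sum.inr (M.e p.1 p.2) ∈ U)}.ncard := by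
  constructor
  · intro h U h1 h2
    have := h (Sum.inl ⁻¹' U) (Sum.inr ⁻¹' U)
      (by rw [← vset_nonempty, vset_preimage]; exact h1)
      (by rw [← vset_nonempty, ← vset_compl, vset_preimage]; exact h2)
    rw [cutc_eq_ncard] at this
    exact this
  · intro h S T h1 h2
    rw [cutc_eq_ncard]
    exact h (vset S T) ((vset_nonempty S T).2 h1) (by
      rw [vset_compl]; exact (vset_nonempty _ _).2 h2)

/-- `C3` in the form with `univ` -/
theorem c3_iff_ne_univ : C3 M ↔ ∀ (S : Set B) (T : Set W), (S.Nonempty ∨ T.Nonempty) →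
    (S ≠ Set.univ ∨ T ≠ Set.univ) →
    3 ≤ Nat.card {q : B × Fin 3 // ¬ (q.1 ∈ S ↔ M.e q.2 q.1 ∈ T)} := by
  unfold C3
  simp only [cutc_eq_natcard, Set.nonempty_compl]

/-- `C4` for sets of vertices, given `C3` -/
theorem c4_iff_vset [Finite W] (h3 : C3 M) : C4 M ↔ ∀ U : Set (B ⊕ W), 2 ≤ U.ncard → 2 ≤ Uᶜ.ncard →
    4 ≤ {p : Fin 3 × B | ¬ (Sum.inl p.2 ∈ U ↔ Sum.inr (M.e p.1 p.2) ∈ U)}.ncard := by
  rw [c3_iff_vset] at h3
  constructor
  · intro h U h1 h2
    have h3' := h3 U (Set.nonempty_of_ncard_ne_zero (by omega))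
      (Set.nonempty_of_ncard_ne_zero (by omega))
    have h4 := h (Sum.inl ⁻¹' U) (Sum.inr ⁻¹' U)
    rw [cutc_eq_ncard, ← vset_ncard, ← vset_ncard, ← vset_compl, vset_preimage] at h4
    have e : {p : Fin 3 × B | ¬ (p.2 ∈ Sum.inl ⁻¹' U ↔ M.e p.1 p.2 ∈ Sum.inr ⁻¹' U)} =
      {p : Fin 3 × B | ¬ (Sum.inl p.2 ∈ U ↔ Sum.inr (M.e p.1 p.2) ∈ U)} := rfl
    rw [e] at h4
    omega
  · intro h S T h1
    rw [← vset_ncard, ← vset_ncard, ← vset_compl]
    rw [cutc_eq_ncard] at h1
    have h4 := h (vset S T)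
    have e : {p : Fin 3 × B | ¬ (p.2 ∈ S ↔ M.e p.1 p.2 ∈ T)} =
      {p : Fin 3 × B | ¬ (Sum.inl p.2 ∈ vset S T ↔ Sum.inr (M.e p.1 p.2) ∈ vset S T)} := rfl
    rw [e] at h1
    omega

end Cuts

/-! ### Hamiltonian cycles -/

section Ham

variable (M : PMap B W V) (m : B → Fin 3)

/-- the edges outside the matching -/
def NE (x y : B ⊕ W) : Prop := ∃ i b, i ≠ m b ∧ x = Sum.inl b ∧ y = Sum.inr (M.e i b)

theorem exists_ne (i : Fin 3) : ∃ j : Fin 3, j ≠ i := ⟨i + 1, Bn.fne1 i⟩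

/-- every white vertex has an edge outside the matching -/
theorem exists_ne_white [Finite B] (hm : Function.Injective fun b => M.e (m b) b) (w : W) :
    ∃ b j, j ≠ m b ∧ M.e j b = w := by
  by_contra hcon
  push Not at hcon
  have h : ∀ i, i = m ((M.e i).symm w) := by
    intro i
    by_contra hne
    exact hcon _ _ hne ((M.e i).apply_symm_apply w)
  have h01 : (M.e 0).symm w = (M.e 1).symm w := by
    apply hm
    show M.e (m ((M.e 0).symm w)) _ = M.e (m ((M.e 1).symm w)) _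
    rw [← h 0, ← h 1, Equiv.apply_symm_apply, Equiv.apply_symm_apply]
  have h0 := h 0
  have h1 := h 1
  rw [h01, ← h1] at h0
  exact absurd h0 (by decide)

/-- cut form and `EqvGen` form on all vertices -/
theorem hamM_iff_eqvGen [Finite B] : HamM M m ↔ Function.Bijective (fun b => M.e (m b) b) ∧
    ∀ x y : B ⊕ W, Relation.EqvGen (NE M m) x y := by
  constructor
  · rintro ⟨h1, h2⟩
    refine ⟨h1, ?_⟩
    have key : ∀ (b₀ b : B), Relation.EqvGen (NE M m) (Sum.inl b₀) (Sum.inl b) := by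
      intro b₀
      apply h2 {b | Relation.EqvGen (NE M m) (Sum.inl b₀) (Sum.inl b)}
        {w | Relation.EqvGen (NE M m) (Sum.inl b₀) (Sum.inr w)}
      · intro b j hj
        have hr : Relation.EqvGen (NE M m) (Sum.inl b) (Sum.inr (M.e j b)) :=
          Relation.EqvGen.rel _ _ ⟨j, b, hj, rfl, rfl⟩
        exact ⟨fun h => h.trans _ _ _ hr, fun h => h.trans _ _ _ (hr.symm)⟩
      · exact ⟨b₀, Relation.EqvGen.refl _⟩
    have kw : ∀ w : W, ∃ b, Relation.EqvGen (NE M m) (Sum.inl b) (Sum.inr w) := by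
      intro w
      obtain ⟨b, j, hj, rfl⟩ := exists_ne_white M m h1.1 w
      exact ⟨b, Relation.EqvGen.rel _ _ ⟨j, b, hj, rfl, rfl⟩⟩
    have kb : ∀ x : B ⊕ W, ∃ b, Relation.EqvGen (NE M m) (Sum.inl b) x := by
      rintro (b | w)
      · exact ⟨b, Relation.EqvGen.refl _⟩
      · exact kw w
    intro x y
    obtain ⟨b, hb⟩ := kb x
    obtain ⟨b', hb'⟩ := kb y
    exact (hb.symm.trans _ _ _ (key b b')).trans _ _ _ hb'
  · rintro ⟨h1, h2⟩
    refine ⟨h1, ?_⟩
    intro S T h ⟨b₀, hb₀⟩ b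
    have : ∀ x y : B ⊕ W, Relation.EqvGen (NE M m) x y → (x ∈ vset S T ↔ y ∈ vset S T) := by
      intro x y hxy
      induction hxy with
      | rel x y hxy =>
        obtain ⟨i, b, hi, rfl, rfl⟩ := hxy
        exact h b i hi
      | refl x => exact Iff.rfl
      | symm x y _ ih => exact ih.symm
      | trans x y z _ _ ih1 ih2 => exact ih1.trans ih2
    exact (this (Sum.inl b₀) (Sum.inl b) (h2 _ _)).1 hb₀

/-- cut form and `EqvGen` form on the white vertices -/
theorem hamM_iff_eqvGen_white [Finite B] : HamM M m ↔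
    Function.Bijective (fun b => M.e (m b) b) ∧
    ∀ w w' : W, Relation.EqvGen
      (fun w w' => ∃ b j j', j ≠ m b ∧ j' ≠ m b ∧ M.e j b = w ∧ M.e j' b = w') w w' := by
  constructor
  · rintro ⟨h1, h2⟩
    refine ⟨h1, ?_⟩
    set r : W → W → Prop :=
      fun w w' => ∃ b j j', j ≠ m b ∧ j' ≠ m b ∧ M.e j b = w ∧ M.e j' b = w' with hr
    intro w w'
    obtain ⟨b₁, j₁, hj₁, hw₁⟩ := exists_ne_white M m h1.1 w
    obtain ⟨b₂, j₂, hj₂, hw₂⟩ := exists_ne_white M m h1.1 w'
    have := h2 {b | ∀ j, j ≠ m b → Relation.EqvGen r w (M.e j b)} {x | Relation.EqvGen r w x}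
      (by
        intro b j hj
        constructor
        · intro h; exact h j hj
        · intro h j' hj'
          exact h.trans _ _ _ (Relation.EqvGen.rel _ _ ⟨b, j, j', hj, hj', rfl, rfl⟩))
      ⟨b₁, by
        intro j hj
        exact Relation.EqvGen.rel _ _ ⟨b₁, j₁, j, hj₁, hj, hw₁, rfl⟩⟩ b₂
    rw [← hw₂]
    exact this j₂ hj₂
  · rintro ⟨h1, h2⟩
    refine ⟨h1, ?_⟩
    intro S T h ⟨b₀, hb₀⟩ b
    have key : ∀ w w' : W, Relation.EqvGen
        (fun w w' => ∃ b j j', j ≠ m b ∧ j' ≠ m b ∧ M.e j b = w ∧ M.e j' b = w') w w' →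
        (w ∈ T ↔ w' ∈ T) := by
      intro x y hxy
      induction hxy with
      | rel x y hxy =>
        obtain ⟨b, i, i', hi, hi', rfl, rfl⟩ := hxy
        exact (h b i hi).symm.trans (h b i' hi')
      | refl x => exact Iff.rfl
      | symm x y _ ih => exact ih.symm
      | trans x y z _ _ ih1 ih2 => exact ih1.trans ih2
    obtain ⟨j₀, hj₀⟩ := exists_ne (m b₀)
    obtain ⟨j, hj⟩ := exists_ne (m b)
    exact (h b j hj).2 ((key _ _ (h2 _ _)).1 ((h b₀ j₀ hj₀).1 hb₀))

end Ham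

/-! ### connectedness -/

section Conn

variable (M : PMap B W V)

/-- `C3` implies connectedness in the cut form -/
theorem cut_conn_of_c3 [Fintype B] (h3 : C3 M) (S : Set B) (T : Set W)
    (h : ∀ b j, b ∈ S ↔ M.e j b ∈ T) (hne : S.Nonempty ∨ T.Nonempty) :
    S = Set.univ ∧ T = Set.univ := by
  by_contra hcon
  have h2 : Sᶜ.Nonempty ∨ Tᶜ.Nonempty := by
    by_contra h'
    push Not at h'
    apply hcon
    constructor
    · rw [← Set.compl_empty_iff]; exact h'.1
    · rw [← Set.compl_empty_iff]; exact h'.2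
  have h4 := h3 S T hne h2
  have h5 : cutc M S T = 0 := by
    classical
    unfold cutc
    rw [Finset.card_eq_zero, Finset.filter_eq_empty_iff]
    intro p _ hp
    exact hp (h p.2 p.1)
  omega

/-- `Conn` in the cut form -/
theorem conn_of_cut (h : ∀ (S : Set B) (T : Set W), (∀ b j, b ∈ S ↔ M.e j b ∈ T) → S.Nonempty →
    ∀ b, b ∈ S) : M.Conn := by
  intro b b'
  have := h {x | Relation.EqvGen (fun x y => ∃ j, M.c j x = M.c j y) b x}
    {w | Relation.EqvGen (fun x y => ∃ j, M.c j x = M.c j y) b ((M.e 0).symm w)} (by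
      intro x j
      have hr : ∀ (i j : Fin 3) (x : B),
          Relation.EqvGen (fun x y => ∃ j, M.c j x = M.c j y) x ((M.e i).symm (M.e j x)) := by
        intro i j x
        -- the third colour
        obtain ⟨k, hki, hkj⟩ := Bn.fthird i j
        refine Relation.EqvGen.rel _ _ ⟨k, ?_⟩
        rw [M.cw_symm k i hki.symm, M.cw_e k j hkj.symm]
      constructor
      · intro hx
        exact Relation.EqvGen.trans _ _ _ hx (hr 0 j x)
      · intro hx
        exact Relation.EqvGen.trans _ _ _ hx (Relation.EqvGen.symm _ _ (hr 0 j x)))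
    ⟨b, Relation.EqvGen.refl _⟩ b'
  exact this

theorem conn_of_c3 [Fintype B] (h3 : C3 M) : M.Conn := by
  apply conn_of_cut
  intro S T h hne b
  rw [(cut_conn_of_c3 M h3 S T h (Or.inl hne)).1]
  trivial

end Conn

end Vale.Agent.P039.Bz
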